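/-
Row 34 (S0045, S0046), Step 5 (a), (b), (d) of the proof in finding #1707, coordinate free.
Abstract setting: a partial linear space `on : P → Ln → Prop` with joins.
-/
import Mathlib

set_option autoImplicit false

namespace Crest.Agent.Ryser

open Finset

/-! ### Kővári–Sós–Turán, power form -/

section KST

variable {P : Type*} [DecidableEq P]

/-- Number of ordered pairs: any `w`-set has fewer than `W` common neighbours, then
`∑_b (d_b + 1 - w)^w ≤ W n^w`. -/
theorem kst_sum_pow (E : P → P → Prop) [DecidableRel E] (S : Finset P) (w W : ℕ)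
    (hK : ∀ U : Finset P, U ⊆ S → U.card = w → (S.filter (fun b => ∀ u ∈ U, E u b)).card < W) :
    ∑ b ∈ S, ((S.filter (fun a => E a b)).card + 1 - w) ^ w ≤ W * S.card ^ w := by
  classical
  -- binomial double count
  have h1 : ∑ b ∈ S, ((S.filter (fun a => E a b)).card).choose w
      ≤ W * S.card.choose w := by
    have h2 : ∀ b ∈ S, ((S.filter (fun a => E a b)).card).choose w
        = ∑ U ∈ S.powersetCard w, if (∀ u ∈ U, E u b) then 1 else 0 := by
      intro b _
      rw [← Finset.card_powersetCard, Finset.sum_boole, Nat.cast_id]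
      congr 1
      ext U
      simp only [Finset.mem_powersetCard, Finset.mem_filter, Finset.subset_iff]
      constructor
      · rintro ⟨h, hc⟩
        exact ⟨⟨fun x hx => (h hx).1, hc⟩, fun u hu => (h hu).2⟩
      · rintro ⟨⟨h, hc⟩, hE⟩
        exact ⟨fun x hx => ⟨h hx, hE x hx⟩, hc⟩
    rw [Finset.sum_congr rfl h2, Finset.sum_comm]
    have h3 : ∀ U ∈ S.powersetCard w, (∑ b ∈ S, if (∀ u ∈ U, E u b) then 1 else 0) ≤ W := by
      intro U hU
      rw [Finset.mem_powersetCard] at hU
      rw [Finset.sum_boole, Nat.cast_id]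
      exact (hK U hU.1 hU.2).le
    calc _ ≤ ∑ _U ∈ S.powersetCard w, W := Finset.sum_le_sum h3
      _ = W * S.card.choose w := by
        rw [Finset.sum_const, Finset.card_powersetCard, smul_eq_mul, mul_comm]
  calc ∑ b ∈ S, ((S.filter (fun a => E a b)).card + 1 - w) ^ w
      ≤ ∑ b ∈ S, w.factorial * ((S.filter (fun a => E a b)).card).choose w := by
        apply Finset.sum_le_sum
        intro b _
        rw [← Nat.descFactorial_eq_factorial_mul_choose]
        exact Nat.pow_sub_le_descFactorial _ _
    _ = w.factorial * ∑ b ∈ S, ((S.filter (fun a => E a b)).card).choose w := by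
        rw [Finset.mul_sum]
    _ ≤ w.factorial * (W * S.card.choose w) := Nat.mul_le_mul_left _ h1
    _ = W * (w.factorial * S.card.choose w) := by ring
    _ = W * S.card.descFactorial w := by rw [Nat.descFactorial_eq_factorial_mul_choose]
    _ ≤ W * S.card ^ w := Nat.mul_le_mul_left _ (Nat.descFactorial_le_pow _ _)

/-- Kővári–Sós–Turán, density form. `e` = number of ordered pairs `(a,b) ∈ S×S` with `E a b`.
If `W < (1-η)^w n` then `e < (1-η) n² + n w`. -/
theorem kst_density (E : P → P → Prop) [DecidableRel E] (S : Finset P) (w W : ℕ) (hw : 1 ≤ w)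
    (η : ℝ) (hη : η ≤ 1)
    (hK : ∀ U : Finset P, U ⊆ S → U.card = w → (S.filter (fun b => ∀ u ∈ U, E u b)).card < W)
    (hW : (W : ℝ) < (1 - η) ^ w * S.card) :
    (((S ×ˢ S).filter (fun z => E z.1 z.2)).card : ℝ) < (1 - η) * S.card ^ 2 + S.card * w := by
  classical
  set n := S.card with hn
  have hnpos : 0 < n := by
    by_contra h
    have h0 : n = 0 := by omega
    rw [h0] at hW
    simp only [Nat.cast_zero, mul_zero] at hW
    have : (0 : ℝ) ≤ W := Nat.cast_nonneg _
    linarith
  have hnR : (0 : ℝ) < n := by exact_mod_cast hnpos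
  by_contra hcon
  push Not at hcon
  -- count `e = ∑ d_b`
  have he : ((S ×ˢ S).filter (fun z => E z.1 z.2)).card
      = ∑ b ∈ S, (S.filter (fun a => E a b)).card := by
    rw [Finset.card_filter, Finset.sum_product_right]
    apply Finset.sum_congr rfl
    intro b _
    rw [Finset.card_filter]
  have hpm := kst_sum_pow E S w W hK
  obtain ⟨w', rfl⟩ : ∃ w', w = w' + 1 := ⟨w - 1, by omega⟩
  set f : P → ℝ := fun b => (((S.filter (fun a => E a b)).card + 1 - (w' + 1) : ℕ) : ℝ) with hf
  have hf0 : ∀ b ∈ S, 0 ≤ f b := fun b _ => Nat.cast_nonneg _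
  have hmean := pow_sum_div_card_le_sum_pow (s := S) (f := f) hf0 w'
  have hsumf : (((S ×ˢ S).filter (fun z => E z.1 z.2)).card : ℝ) - n * ((w' : ℝ) + 1) ≤ ∑ b ∈ S, f b := by
    rw [he]
    push_cast
    have : ∀ b ∈ S, ((S.filter (fun a => E a b)).card : ℝ) - ((w' : ℝ) + 1) ≤ f b := by
      intro b _
      simp only [hf]
      have h1 : ((S.filter (fun a => E a b)).card : ℝ) ≤
          (((S.filter (fun a => E a b)).card + 1 - (w' + 1) : ℕ) : ℝ) + (w' : ℝ) := by
        have : (S.filter (fun a => E a b)).card ≤ ((S.filter (fun a => E a b)).card + 1 - (w' + 1)) + w' := by omega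
        exact_mod_cast this
      linarith
    have h2 := Finset.sum_le_sum this
    rw [Finset.sum_sub_distrib, Finset.sum_const, nsmul_eq_mul] at h2
    linarith
  have hlow : (1 - η) * (n : ℝ) ^ 2 ≤ ∑ b ∈ S, f b := by
    push_cast at hcon
    linarith
  have hηnn : 0 ≤ 1 - η := by linarith
  have hpow : ((1 - η) * (n : ℝ) ^ 2) ^ (w' + 1) ≤ (∑ b ∈ S, f b) ^ (w' + 1) :=
    pow_le_pow_left₀ (by positivity) hlow _
  have hpmR : ∑ b ∈ S, (f b) ^ (w' + 1) ≤ (W : ℝ) * (n : ℝ) ^ (w' + 1) := by
    have : ((∑ b ∈ S, ((S.filter (fun a => E a b)).card + 1 - (w' + 1)) ^ (w' + 1) : ℕ) : ℝ)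
        ≤ ((W * S.card ^ (w' + 1) : ℕ) : ℝ) := by exact_mod_cast hpm
    push_cast at this
    simpa [hf] using this
  have hchain : (∑ b ∈ S, f b) ^ (w' + 1) ≤ (W : ℝ) * (n : ℝ) ^ (w' + 1) * (n : ℝ) ^ w' := by
    have h3 := hmean.trans hpmR
    rw [div_le_iff₀ (by positivity)] at h3
    simpa using h3
  have hfinal : (1 - η) ^ (w' + 1) * (n : ℝ) ^ (2 * (w' + 1)) ≤
      (W : ℝ) * (n : ℝ) ^ (2 * (w' + 1) - 1) := by
    have e1 : ((1 - η) * (n : ℝ) ^ 2) ^ (w' + 1) = (1 - η) ^ (w' + 1) * (n : ℝ) ^ (2 * (w' + 1)) := by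
      rw [mul_pow, ← pow_mul]
    have e2 : (W : ℝ) * (n : ℝ) ^ (w' + 1) * (n : ℝ) ^ w' = (W : ℝ) * (n : ℝ) ^ (2 * (w' + 1) - 1) := by
      have h2w : 2 * (w' + 1) - 1 = (w' + 1) + w' := by omega
      rw [h2w]
      ring
    rw [← e1, ← e2]
    exact hpow.trans hchain
  have e3 : (n : ℝ) ^ (2 * (w' + 1)) = (n : ℝ) ^ (2 * (w' + 1) - 1) * n := by
    have h2w : 2 * (w' + 1) = (2 * (w' + 1) - 1) + 1 := by omega
    conv_lhs => rw [h2w]
    rw [pow_succ]
  rw [e3] at hfinal
  have hpos : 0 < (n : ℝ) ^ (2 * (w' + 1) - 1) := by positivity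
  have : (1 - η) ^ (w' + 1) * (n : ℝ) ≤ W := by
    by_contra h
    push Not at h
    have := mul_lt_mul_of_pos_right h hpos
    nlinarith
  linarith

end KST

/-! ### Partial linear spaces -/

section Linear

variable {P Ln : Type*} [DecidableEq P] [DecidableEq Ln]

/-- Abstract partial linear space with joins. -/
structure PLS (on : P → Ln → Prop) (join : P → P → Ln) : Prop where
  uniq : ∀ {p p' : P} {l l' : Ln}, p ≠ p' → on p l → on p' l → on p l' → on p' l' → l = l'
  join_left : ∀ {p p' : P}, p ≠ p' → on p (join p p')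
  join_right : ∀ {p p' : P}, p ≠ p' → on p' (join p p')

variable {on : P → Ln → Prop} {join : P → P → Ln}

theorem PLS.join_eq (G : PLS on join) {p p' : P} {l : Ln} (h : p ≠ p') (hp : on p l)
    (hp' : on p' l) : join p p' = l :=
  G.uniq h (G.join_left h) (G.join_right h) hp hp'

variable [DecidableRel on]

/-- `x_l = |S ∩ l|`. -/
def xc (on : P → Ln → Prop) [DecidableRel on] (S : Finset P) (l : Ln) : ℕ :=
  (S.filter (fun p => on p l)).card

/-- General position of the `w²` joins of `U, V`. -/
def GenPos (on : P → Ln → Prop) [DecidableRel on] (join : P → P → Ln) (U V : Finset P) : Prop :=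
  Set.InjOn (fun z : P × P => join z.1 z.2) (U ×ˢ V : Finset (P × P)) ∧
    ∀ z : P, z ∉ U → z ∉ V → ((U ×ˢ V).filter (fun uv => on z (join uv.1 uv.2))).card ≤ 2

/-- The greedy step of 5(a) and 5(d). -/
theorem exists_genPos [Fintype P] (G : PLS on join) (U V0 : Finset P) (w X0 : ℕ)
    (hU : U.card = w) (hw : 1 ≤ w)
    (hne : ∀ u ∈ U, ∀ v ∈ V0, u ≠ v)
    (hline : ∀ u ∈ U, ∀ l : Ln, on u l → (V0.filter (fun v => on v l)).card ≤ X0)
    (hcard : 3 * w ^ 5 * X0 < V0.card) :
    ∃ V ⊆ V0, V.card = w ∧ GenPos on join U V := by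
  classical
  have key : ∀ k, k ≤ w → ∃ V ⊆ V0, V.card = k ∧ GenPos on join U V := by
    intro k
    induction k with
    | zero =>
      intro _
      refine ⟨∅, Finset.empty_subset _, rfl, ?_, ?_⟩
      · intro a ha
        simp at ha
      · intro z _ _
        simp
    | succ k ih =>
      intro hk
      obtain ⟨V, hVsub, hVc, hInj, hConc⟩ := ih (by omega)
      obtain ⟨u0, hu0⟩ : U.Nonempty := by
        rw [← Finset.card_pos]; omega
      -- pairs and lines
      set Pr := U ×ˢ V with hPr
      have hPrc : Pr.card ≤ w ^ 2 := by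
        rw [hPr, Finset.card_product, hU, hVc, sq]
        exact Nat.mul_le_mul_left _ (by omega)
      -- multiple points
      set Z : Finset P := Finset.univ.filter (fun z => z ∉ U ∧ ∃ a ∈ Pr, ∃ b ∈ Pr, a ≠ b ∧
        on z (join a.1 a.2) ∧ on z (join b.1 b.2)) with hZ
      have hZc : Z.card ≤ (w ^ 2) * (w ^ 2) := by
        have hch : ∀ z ∈ Z, ∃ ab : (P × P) × (P × P), ab.1 ∈ Pr ∧ ab.2 ∈ Pr ∧ ab.1 ≠ ab.2 ∧
            on z (join ab.1.1 ab.1.2) ∧ on z (join ab.2.1 ab.2.2) := by
          intro z hz
          rw [hZ, Finset.mem_filter] at hz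
          obtain ⟨_, _, a, ha, b, hb, hab, h1, h2⟩ := hz
          exact ⟨(a, b), ha, hb, hab, h1, h2⟩
        choose! g hg using hch
        have hmaps : ∀ z ∈ Z, g z ∈ Pr ×ˢ Pr := by
          intro z hz
          exact Finset.mem_product.mpr ⟨(hg z hz).1, (hg z hz).2.1⟩
        have hinj : Set.InjOn g (Z : Set P) := by
          intro z hz z' hz' hgg
          by_contra hne'
          obtain ⟨ha, hb, hab, h1, h2⟩ := hg z hz
          obtain ⟨ha', hb', hab', h1', h2'⟩ := hg z' hz'
          rw [← hgg] at h1' h2'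
          have hl : join (g z).1.1 (g z).1.2 = join (g z).2.1 (g z).2.2 :=
            G.uniq hne' h1 h1' h2 h2'
          exact hab (hInj ha hb hl)
        calc Z.card ≤ (Pr ×ˢ Pr).card := Finset.card_le_card_of_injOn g hmaps hinj
          _ = Pr.card * Pr.card := Finset.card_product _ _
          _ ≤ w ^ 2 * w ^ 2 := Nat.mul_le_mul hPrc hPrc
      -- forbidden lines
      set F : Finset Ln := ((U ×ˢ U).filter (fun z => z.1 ≠ z.2)).image (fun z => join z.1 z.2) ∪
        Pr.image (fun z => join z.1 z.2) ∪ (U ×ˢ Z).image (fun z => join z.1 z.2) with hF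
      have hFc : F.card ≤ 3 * w ^ 5 := by
        have c1 : (((U ×ˢ U).filter (fun z => z.1 ≠ z.2)).image (fun z => join z.1 z.2)).card ≤ w ^ 2 := by
          refine Finset.card_image_le.trans ((Finset.card_filter_le _ _).trans ?_)
          rw [Finset.card_product, hU, sq]
        have c2 : (Pr.image (fun z => join z.1 z.2)).card ≤ w ^ 2 :=
          Finset.card_image_le.trans hPrc
        have c3 : ((U ×ˢ Z).image (fun z => join z.1 z.2)).card ≤ w ^ 5 := by
          refine Finset.card_image_le.trans ?_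
          rw [Finset.card_product, hU]
          calc w * Z.card ≤ w * (w ^ 2 * w ^ 2) := Nat.mul_le_mul_left _ hZc
            _ = w ^ 5 := by ring
        have h25 : w ^ 2 ≤ w ^ 5 := Nat.pow_le_pow_right hw (by norm_num)
        calc F.card ≤ _ := Finset.card_union_le _ _
          _ ≤ _ := Nat.add_le_add_right (Finset.card_union_le _ _) _
          _ ≤ w ^ 2 + w ^ 2 + w ^ 5 := Nat.add_le_add (Nat.add_le_add c1 c2) c3
          _ ≤ 3 * w ^ 5 := by omega
      -- each forbidden line contains a point of `U`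
      have hFu : ∀ l ∈ F, ∃ u ∈ U, on u l := by
        intro l hl
        simp only [hF, Finset.mem_union, Finset.mem_image, Finset.mem_filter, Finset.mem_product] at hl
        rcases hl with (⟨z, ⟨⟨hz1, _⟩, hz⟩, rfl⟩ | ⟨z, hz, rfl⟩) | ⟨z, ⟨hz1, hz2⟩, rfl⟩
        · exact ⟨z.1, hz1, G.join_left hz⟩
        · have hz' := Finset.mem_product.mp hz
          exact ⟨z.1, hz'.1, G.join_left (hne _ hz'.1 _ (hVsub hz'.2))⟩
        · refine ⟨z.1, hz1, G.join_left ?_⟩
          rintro h
          have := (Finset.mem_filter.mp hz2).2.1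
          exact this (h ▸ hz1)
      -- a new point
      have hbad : (F.biUnion (fun l => V0.filter (fun v => on v l))).card ≤ 3 * w ^ 5 * X0 := by
        refine Finset.card_biUnion_le.trans ?_
        calc ∑ l ∈ F, (V0.filter (fun v => on v l)).card
            ≤ ∑ _l ∈ F, X0 := by
              apply Finset.sum_le_sum
              intro l hl
              obtain ⟨u, hu, hul⟩ := hFu l hl
              exact hline u hu l hul
          _ = F.card * X0 := by rw [Finset.sum_const, smul_eq_mul]
          _ ≤ 3 * w ^ 5 * X0 := Nat.mul_le_mul_right _ hFc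
      obtain ⟨v, hv0, hvbad⟩ : ∃ v ∈ V0, v ∉ F.biUnion (fun l => V0.filter (fun v => on v l)) := by
        by_contra hcon
        push Not at hcon
        have : V0 ⊆ F.biUnion (fun l => V0.filter (fun v => on v l)) := fun v hv => hcon v hv
        have := Finset.card_le_card this
        omega
      have hvF : ∀ l ∈ F, ¬ on v l := by
        intro l hl hvl
        exact hvbad (Finset.mem_biUnion.mpr ⟨l, hl, Finset.mem_filter.mpr ⟨hv0, hvl⟩⟩)
      have hF1 : ∀ u ∈ U, ∀ u' ∈ U, u ≠ u' → join u u' ∈ F := by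
        intro u hu u' hu' h
        refine Finset.mem_union_left _ (Finset.mem_union_left _ (Finset.mem_image.mpr ⟨(u, u'), ?_, rfl⟩))
        exact Finset.mem_filter.mpr ⟨Finset.mem_product.mpr ⟨hu, hu'⟩, h⟩
      have hF2 : ∀ u ∈ U, ∀ t ∈ V, join u t ∈ F := by
        intro u hu t ht
        refine Finset.mem_union_left _ (Finset.mem_union_right _ (Finset.mem_image.mpr ⟨(u, t), ?_, rfl⟩))
        exact Finset.mem_product.mpr ⟨hu, ht⟩
      have hF3 : ∀ u ∈ U, ∀ z ∈ Z, join u z ∈ F := by
        intro u hu z hz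
        refine Finset.mem_union_right _ (Finset.mem_image.mpr ⟨(u, z), ?_, rfl⟩)
        exact Finset.mem_product.mpr ⟨hu, hz⟩
      have hvV : v ∉ V := by
        intro hvV
        exact hvF _ (hF2 u0 hu0 v hvV) (G.join_right (hne u0 hu0 v hv0))
      have hnewne : ∀ u ∈ U, u ≠ v := fun u hu => hne u hu v hv0
      -- new joins are distinct from each other
      have hnew1 : ∀ u ∈ U, ∀ u' ∈ U, join u v = join u' v → u = u' := by
        intro u hu u' hu' hjj
        by_contra hneq
        have hl : join u v = join u u' :=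
          (G.join_eq hneq (G.join_left (hnewne u hu))
            (by rw [hjj]; exact G.join_left (hnewne u' hu'))).symm
        exact hvF _ (hF1 u hu u' hu' hneq) (by rw [← hl]; exact G.join_right (hnewne u hu))
      -- new joins differ from old
      have hnew2 : ∀ u ∈ U, ∀ u' ∈ U, ∀ t ∈ V, join u v ≠ join u' t := by
        intro u hu u' hu' t ht hjj
        exact hvF _ (hF2 u' hu' t ht) (by rw [← hjj]; exact G.join_right (hnewne u hu))
      refine ⟨insert v V, ?_, ?_, ?_, ?_⟩
      · intro x hx
        rcases Finset.mem_insert.mp hx with rfl | hx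
        · exact hv0
        · exact hVsub hx
      · rw [Finset.card_insert_of_notMem hvV, hVc]
      · -- injectivity
        rintro ⟨a, b⟩ hab ⟨a', b'⟩ hab' hjj
        simp only [Finset.coe_product, Set.mem_prod, Finset.mem_coe, Finset.mem_insert] at hab hab'
        simp only at hjj
        rcases hab.2 with rfl | hb <;> rcases hab'.2 with rfl | hb'
        · rw [hnew1 a hab.1 a' hab'.1 hjj]
        · exact absurd hjj (hnew2 a hab.1 a' hab'.1 b' hb')
        · exact absurd hjj.symm (hnew2 a' hab'.1 a hab.1 b hb)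
        · have : (a, b) = (a', b') := hInj
            (by simp only [hPr, Finset.coe_product, Set.mem_prod, Finset.mem_coe]; exact ⟨hab.1, hb⟩)
            (by simp only [hPr, Finset.coe_product, Set.mem_prod, Finset.mem_coe]; exact ⟨hab'.1, hb'⟩) hjj
          exact this
      · -- concurrency
        intro z hzU hzV
        have hzv : z ≠ v := fun h => hzV (by rw [h]; exact Finset.mem_insert_self _ _)
        have hzV' : z ∉ V := fun h => hzV (Finset.mem_insert_of_mem h)
        set A := Pr.filter (fun uv => on z (join uv.1 uv.2)) with hA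
        set B := ((U ×ˢ ({v} : Finset P))).filter (fun uv => on z (join uv.1 uv.2)) with hB
        have hsub : (U ×ˢ insert v V).filter (fun uv => on z (join uv.1 uv.2)) ⊆ A ∪ B := by
          intro ab hab
          rw [Finset.mem_filter, Finset.mem_product, Finset.mem_insert] at hab
          rcases hab.1.2 with h | h
          · refine Finset.mem_union_right _ (Finset.mem_filter.mpr ⟨?_, hab.2⟩)
            exact Finset.mem_product.mpr ⟨hab.1.1, Finset.mem_singleton.mpr h⟩
          · refine Finset.mem_union_left _ (Finset.mem_filter.mpr ⟨?_, hab.2⟩)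
            exact Finset.mem_product.mpr ⟨hab.1.1, h⟩
        have hAc : A.card ≤ 2 := hConc z hzU hzV'
        have hBc : B.card ≤ 1 := by
          rw [Finset.card_le_one]
          intro a ha b hb
          rw [hB, Finset.mem_filter, Finset.mem_product, Finset.mem_singleton] at ha hb
          have h1 : a.2 = v := ha.1.2
          have h2 : b.2 = v := hb.1.2
          have h3 := ha.2
          have h4 := hb.2
          rw [h1] at h3
          rw [h2] at h4
          have : join a.1 v = join b.1 v :=
            G.uniq hzv h3 (G.join_right (hnewne _ ha.1.1)) h4 (G.join_right (hnewne _ hb.1.1))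
          have h5 := hnew1 a.1 ha.1.1 b.1 hb.1.1 this
          exact Prod.ext h5 (h1.trans h2.symm)
        by_cases hB0 : B.card = 0
        · calc _ ≤ (A ∪ B).card := Finset.card_le_card hsub
            _ ≤ A.card + B.card := Finset.card_union_le _ _
            _ ≤ 2 := by omega
        · -- then `A` has at most one element
          have hBne : B.Nonempty := by
            rw [← Finset.card_pos]; omega
          obtain ⟨c, hc⟩ := hBne
          rw [hB, Finset.mem_filter, Finset.mem_product, Finset.mem_singleton] at hc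
          have hA1 : A.card ≤ 1 := by
            rw [Finset.card_le_one]
            intro a ha b hb
            by_contra hab
            rw [hA, Finset.mem_filter] at ha hb
            have hzZ : z ∈ Z := by
              rw [hZ, Finset.mem_filter]
              exact ⟨Finset.mem_univ _, hzU, a, ha.1, b, hb.1, hab, ha.2, hb.2⟩
            have hc1 : c.1 ∈ U := hc.1.1
            have hc2 : c.2 = v := hc.1.2
            have hcon := hc.2
            rw [hc2] at hcon
            have hczne : c.1 ≠ z := fun h => hzU (h ▸ hc1)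
            have hl : join c.1 z = join c.1 v :=
              G.join_eq hczne (G.join_left (hnewne _ hc1)) hcon
            exact hvF _ (hF3 c.1 hc1 z hzZ) (by rw [hl]; exact G.join_right (hnewne _ hc1))
          calc _ ≤ (A ∪ B).card := Finset.card_le_card hsub
            _ ≤ A.card + B.card := Finset.card_union_le _ _
            _ ≤ 2 := by omega
  exact key w le_rfl

/-- The grid property G2 of Step 4. -/
def GridProp (on : P → Ln → Prop) [DecidableRel on] (join : P → P → Ln) (thr : Ln → Prop)
    (w : ℕ) (R : Finset Ln) (A : Finset P) : Prop :=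
  ∀ U V : Finset P, U ⊆ A → V ⊆ A → U.card = w → V.card = w →
    (∀ u ∈ U, ∀ v ∈ V, u ≠ v ∧ ¬ thr (join u v)) →
    GenPos on join U V →
    ∃ u ∈ U, ∃ v ∈ V, join u v ∈ R

/-- The graph of 5(a): non-retained, poor joins not through `O`. -/
def PoorEdge (on : P → Ln → Prop) [DecidableRel on] (join : P → P → Ln) (thr : Ln → Prop)
    (X0 : ℕ) (R : Finset Ln) (S : Finset P) (a b : P) : Prop :=
  a ≠ b ∧ ¬ thr (join a b) ∧ join a b ∉ R ∧ xc on S (join a b) ≤ X0

/-- Step 5(a): the graph has no `K_{w,W}` with `W = 3 w^5 X0 + 1`. -/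
theorem no_K [Fintype P] (G : PLS on join) {thr : Ln → Prop} {w X0 : ℕ} {R : Finset Ln}
    {A S : Finset P} (hw : 1 ≤ w) (hSA : S ⊆ A) (hGrid : GridProp on join thr w R A)
    (U V0 : Finset P) (hU : U ⊆ S) (hUc : U.card = w) (hV0 : V0 ⊆ S)
    (hE : ∀ u ∈ U, ∀ v ∈ V0, PoorEdge on join thr X0 R S u v) :
    V0.card ≤ 3 * w ^ 5 * X0 := by
  classical
  by_contra hcon
  push Not at hcon
  obtain ⟨V, hVsub, hVc, hgp⟩ := exists_genPos G U V0 w X0 hUc hw
    (fun u hu v hv => (hE u hu v hv).1)
    (by
      intro u hu l hul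
      by_cases hne : (V0.filter (fun v => on v l)).Nonempty
      · obtain ⟨v, hv⟩ := hne
        rw [Finset.mem_filter] at hv
        have h1 := hE u hu v hv.1
        have h2 : join u v = l := G.join_eq h1.1 hul hv.2
        have h3 : xc on S l ≤ X0 := h2 ▸ h1.2.2.2
        refine le_trans (Finset.card_le_card ?_) h3
        intro y hy
        rw [Finset.mem_filter] at hy ⊢
        exact ⟨hV0 hy.1, hy.2⟩
      · rw [Finset.not_nonempty_iff_eq_empty.mp hne]
        simp)
    hcon
  obtain ⟨u, hu, v, hv, hj⟩ := hGrid U V (hU.trans hSA) ((hVsub.trans hV0).trans hSA) hUc hVc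
    (fun u hu v hv => ⟨(hE u hu v (hVsub hv)).1, (hE u hu v (hVsub hv)).2.1⟩) hgp
  exact (hE u hu v (hVsub hv)).2.2.1 hj

/-- Ordered pairs with distinct entries and join in a set `T` of lines. -/
theorem card_pairs_join_mem_le (G : PLS on join) (S : Finset P) (T : Finset Ln) :
    (((S ×ˢ S).filter (fun z => z.1 ≠ z.2 ∧ join z.1 z.2 ∈ T)).card)
      ≤ ∑ l ∈ T, xc on S l * (xc on S l - 1) := by
  classical
  rw [Finset.card_eq_sum_card_fiberwise (f := fun z : P × P => join z.1 z.2) (t := T)]
  · apply Finset.sum_le_sum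
    intro l _
    have hsub : ((S ×ˢ S).filter (fun z => z.1 ≠ z.2 ∧ join z.1 z.2 ∈ T)).filter
        (fun z => join z.1 z.2 = l) ⊆ (S.filter (fun p => on p l)).offDiag := by
      intro z hz
      simp only [Finset.mem_filter, Finset.mem_product] at hz
      rw [Finset.mem_offDiag, Finset.mem_filter, Finset.mem_filter]
      obtain ⟨⟨⟨h1, h2⟩, h3, _⟩, h4⟩ := hz
      exact ⟨⟨h1, h4 ▸ G.join_left h3⟩, ⟨h2, h4 ▸ G.join_right h3⟩, h3⟩
    refine (Finset.card_le_card hsub).trans ?_
    rw [Finset.offDiag_card]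
    unfold xc
    rw [Nat.mul_sub, mul_one]
  · intro z hz
    have := (Finset.mem_filter.mp hz).2.2
    exact this

/-- `x(x-1) ≤ X0 (x-1)` on poor lines. -/
theorem sum_poor_le (S : Finset P) (R : Finset Ln) (X0 : ℕ) :
    ∑ l ∈ R.filter (fun l => xc on S l ≤ X0), xc on S l * (xc on S l - 1)
      ≤ X0 * ∑ l ∈ R, (xc on S l - 1) := by
  rw [Finset.mul_sum]
  calc _ ≤ ∑ l ∈ R.filter (fun l => xc on S l ≤ X0), X0 * (xc on S l - 1) := by
        apply Finset.sum_le_sum
        intro l hl
        exact Nat.mul_le_mul_right _ (Finset.mem_filter.mp hl).2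
    _ ≤ _ := Finset.sum_le_sum_of_subset (Finset.filter_subset _ _)

/-- Step 5(a,b): many pairs on rich lines. `B2` bounds `∑_{l ∈ R'} (x_l - 1)`; each point is on at
most one line through `O`. -/
theorem rich_pairs [Fintype P] [Fintype Ln] (G : PLS on join) {thr : Ln → Prop} [DecidablePred thr]
    {w X0 : ℕ} {R : Finset Ln} {A S : Finset P} (hw : 1 ≤ w) (hSA : S ⊆ A)
    (hGrid : GridProp on join thr w R A)
    (hthr : ∀ (p : P) (l l' : Ln), on p l → on p l' → thr l → thr l' → l = l')
    (η : ℝ) (hη : η ≤ 1)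
    (hW : ((3 * w ^ 5 * X0 + 1 : ℕ) : ℝ) < (1 - η) ^ w * S.card) :
    η * (S.card : ℝ) ^ 2 - S.card * w - S.card - S.card * X0 - X0 * (∑ l ∈ R, (xc on S l - 1) : ℕ)
      ≤ ((∑ l ∈ Finset.univ.filter (fun l : Ln => X0 < xc on S l),
          xc on S l * (xc on S l - 1) : ℕ) : ℝ) := by
  classical
  set E := PoorEdge on join thr X0 R S with hE
  have hK : ∀ U : Finset P, U ⊆ S → U.card = w →
      (S.filter (fun b => ∀ u ∈ U, E u b)).card < 3 * w ^ 5 * X0 + 1 := by
    intro U hU hUc
    have := no_K G hw hSA hGrid U (S.filter (fun b => ∀ u ∈ U, E u b)) hU hUc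
      (Finset.filter_subset _ _) (by
        intro u hu v hv
        exact (Finset.mem_filter.mp hv).2 u hu)
    omega
  have hk := kst_density E S w _ hw η hη (by intro U hU hUc; convert hK U hU hUc) hW
  -- decomposition of the square
  set D1 := (S ×ˢ S).filter (fun z => z.1 = z.2) with hD1
  set D2 := (S ×ˢ S).filter (fun z => z.1 ≠ z.2 ∧ thr (join z.1 z.2) ∧ xc on S (join z.1 z.2) ≤ X0) with hD2
  set D3 := (S ×ˢ S).filter (fun z => z.1 ≠ z.2 ∧ join z.1 z.2 ∈ R.filter (fun l => xc on S l ≤ X0)) with hD3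
  set D4 := (S ×ˢ S).filter (fun z => z.1 ≠ z.2 ∧ join z.1 z.2 ∈ Finset.univ.filter (fun l : Ln => X0 < xc on S l)) with hD4
  have hcover : S ×ˢ S ⊆ ((S ×ˢ S).filter (fun z => E z.1 z.2)) ∪ D1 ∪ D2 ∪ D3 ∪ D4 := by
    intro z hz
    simp only [Finset.mem_union, hD1, hD2, hD3, hD4, Finset.mem_filter, hz, true_and, Finset.mem_univ, hE]
    by_cases h1 : z.1 = z.2
    · exact Or.inl (Or.inl (Or.inl (Or.inr h1)))
    by_cases h2 : X0 < xc on S (join z.1 z.2)
    · exact Or.inr ⟨h1, h2⟩
    have h2' : xc on S (join z.1 z.2) ≤ X0 := by omega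
    by_cases h3 : thr (join z.1 z.2)
    · exact Or.inl (Or.inl (Or.inr ⟨h1, h3, h2'⟩))
    by_cases h4 : join z.1 z.2 ∈ R
    · exact Or.inl (Or.inr ⟨h1, h4, h2'⟩)
    · exact Or.inl (Or.inl (Or.inl (Or.inl ⟨h1, h3, h4, h2'⟩)))
  have hcard : (S.card) ^ 2 ≤ ((S ×ˢ S).filter (fun z => E z.1 z.2)).card + D1.card + D2.card + D3.card + D4.card := by
    have h := Finset.card_le_card hcover
    rw [Finset.card_product] at h
    have h' : (((S ×ˢ S).filter (fun z => E z.1 z.2)) ∪ D1 ∪ D2 ∪ D3 ∪ D4).card
        ≤ ((S ×ˢ S).filter (fun z => E z.1 z.2)).card + D1.card + D2.card + D3.card + D4.card := by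
      refine (Finset.card_union_le _ _).trans (Nat.add_le_add_right ?_ _)
      refine (Finset.card_union_le _ _).trans (Nat.add_le_add_right ?_ _)
      refine (Finset.card_union_le _ _).trans (Nat.add_le_add_right ?_ _)
      exact Finset.card_union_le _ _
    rw [sq]
    exact h.trans h'
  have hD1c : D1.card ≤ S.card := by
    have : D1 ⊆ S.image (fun p => (p, p)) := by
      intro z hz
      rw [hD1, Finset.mem_filter, Finset.mem_product] at hz
      exact Finset.mem_image.mpr ⟨z.1, hz.1.1, Prod.ext rfl hz.2⟩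
    exact (Finset.card_le_card this).trans Finset.card_image_le
  have hD2c : D2.card ≤ S.card * X0 := by
    rw [hD2, Finset.card_filter, Finset.sum_product]
    calc _ ≤ ∑ _a ∈ S, X0 := by
          apply Finset.sum_le_sum
          intro a _
          rw [← Finset.card_filter]
          by_cases hne : (S.filter (fun b => (a, b).1 ≠ (a, b).2 ∧ thr (join (a, b).1 (a, b).2) ∧
              xc on S (join (a, b).1 (a, b).2) ≤ X0)).Nonempty
          · obtain ⟨b0, hb0⟩ := hne
            rw [Finset.mem_filter] at hb0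
            obtain ⟨hb0S, hab0, hthr0, hx0⟩ := hb0
            simp only at hab0 hthr0 hx0
            refine le_trans (Finset.card_le_card ?_) hx0
            intro b hb
            rw [Finset.mem_filter] at hb ⊢
            obtain ⟨hbS, hab, hthrb, _⟩ := hb
            simp only at hab hthrb
            have : join a b = join a b0 := hthr a _ _ (G.join_left hab) (G.join_left hab0) hthrb hthr0
            exact ⟨hbS, this ▸ G.join_right hab⟩
          · rw [Finset.not_nonempty_iff_eq_empty.mp hne]
            simp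
      _ = S.card * X0 := by rw [Finset.sum_const, smul_eq_mul]
  have hD3c : D3.card ≤ X0 * ∑ l ∈ R, (xc on S l - 1) :=
    (card_pairs_join_mem_le G S _).trans (sum_poor_le S R X0)
  have hD4c := card_pairs_join_mem_le (on := on) G S (Finset.univ.filter (fun l : Ln => X0 < xc on S l))
  have hcardR : ((S.card : ℝ)) ^ 2 ≤ ((((S ×ˢ S).filter (fun z => E z.1 z.2)).card : ℕ) : ℝ) + D1.card + D2.card + D3.card + D4.card := by
    exact_mod_cast hcard
  have h1R : (D1.card : ℝ) ≤ S.card := by exact_mod_cast hD1c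
  have h2R : (D2.card : ℝ) ≤ S.card * X0 := by exact_mod_cast hD2c
  have h3R : (D3.card : ℝ) ≤ X0 * ((∑ l ∈ R, (xc on S l - 1) : ℕ) : ℝ) := by exact_mod_cast hD3c
  have h4R : (D4.card : ℝ) ≤ ((∑ l ∈ Finset.univ.filter (fun l : Ln => X0 < xc on S l),
      xc on S l * (xc on S l - 1) : ℕ) : ℝ) := by exact_mod_cast hD4c
  nlinarith [hk]

/-- Step 5(d): a line with at least `X` points of `S` carries almost all of `S`. `B2` bounds
`∑_{l ∈ R'} (x_l - 1)`. -/
theorem near_line [Fintype P] (G : PLS on join) {thr : Ln → Prop} [DecidablePred thr]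
    {w : ℕ} {R : Finset Ln} {A S : Finset P} (hw : 1 ≤ w) (hSA : S ⊆ A)
    (hGrid : GridProp on join thr w R A)
    (hthr : ∀ (p : P) (l l' : Ln), on p l → on p l' → thr l → thr l' → l = l')
    (m : Ln) (X : ℝ) (hX : X ≤ xc on S m) (hX8 : 8 * (w : ℝ) ^ 5 ≤ X) :
    2 * w > (S.filter (fun p => ¬ on p m)).card ∨
      ((S.filter (fun p => ¬ on p m)).card : ℝ) * X
        < 8 * w * ((∑ l ∈ R, (xc on S l - 1) : ℕ) : ℝ) := by
  classical
  set S2 := S.filter (fun p => ¬ on p m) with hS2
  set Y := S.filter (fun p => on p m) with hY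
  set B := ((∑ l ∈ R, (xc on S l - 1) : ℕ) : ℝ) with hB
  have hB0 : 0 ≤ B := Nat.cast_nonneg _
  by_contra hcon
  push Not at hcon
  obtain ⟨hN2, hNX⟩ := hcon
  have hwR : (1 : ℝ) ≤ w := by exact_mod_cast hw
  have hNpos : 0 < S2.card := by omega
  have hNR : (0 : ℝ) < S2.card := by exact_mod_cast hNpos
  -- bad pairs
  let bd : P → Finset P := fun s => Y.filter (fun y => s ≠ y ∧ join s y ∈ R)
  have hsum : ((∑ s ∈ S2, (bd s).card : ℕ) : ℝ) ≤ B := by
    have h0 : ∑ s ∈ S2, (bd s).card ≤ ∑ l ∈ R, (xc on S l - 1) := by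
      -- count by lines
      have h1 : ∀ s ∈ S2, (bd s).card = ∑ l ∈ R, ((Y.filter (fun y => s ≠ y ∧ join s y = l)).card) := by
        intro s _
        rw [← Finset.card_biUnion]
        · congr 1
          ext y
          simp only [bd, Finset.mem_filter, Finset.mem_biUnion]
          constructor
          · rintro ⟨h1, h2, h3⟩
            exact ⟨_, h3, h1, h2, rfl⟩
          · rintro ⟨l, hl, h1, h2, rfl⟩
            exact ⟨h1, h2, hl⟩
        · intro l _ l' _ hll
          rw [Function.onFun, Finset.disjoint_left]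
          intro y hy hy'
          rw [Finset.mem_filter] at hy hy'
          exact hll (hy.2.2.symm.trans hy'.2.2)
      rw [Finset.sum_congr rfl h1, Finset.sum_comm]
      apply Finset.sum_le_sum
      intro l hl
      -- points of `S2` on `l` with a partner on `m`
      by_cases hlm : l = m
      · -- no pair: `s ∉ m`
        have : ∀ s ∈ S2, (Y.filter (fun y => s ≠ y ∧ join s y = l)).card = 0 := by
          intro s hs
          rw [Finset.card_eq_zero, Finset.filter_eq_empty_iff]
          rintro y _ ⟨h1, h2⟩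
          have : on s l := h2 ▸ G.join_left h1
          rw [hlm] at this
          exact (Finset.mem_filter.mp hs).2 this
        rw [Finset.sum_eq_zero this]
        exact Nat.zero_le _
      · -- at most one point of `m` on `l`
        have hone : ∀ y ∈ Y, ∀ y' ∈ Y, on y l → on y' l → y = y' := by
          intro y hy y' hy' h1 h2
          by_contra hne
          exact hlm (G.uniq hne h1 h2 (Finset.mem_filter.mp hy).2 (Finset.mem_filter.mp hy').2)
        by_cases hyl : ∃ y ∈ Y, on y l
        · obtain ⟨y0, hy0, hy0l⟩ := hyl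
          have h2 : ∀ s ∈ S2, (Y.filter (fun y => s ≠ y ∧ join s y = l)).card
              ≤ if on s l then 1 else 0 := by
            intro s hs
            split_ifs with hsl
            · rw [Finset.card_le_one]
              intro a ha b hb
              rw [Finset.mem_filter] at ha hb
              exact hone a ha.1 b hb.1 (ha.2.2 ▸ G.join_right ha.2.1) (hb.2.2 ▸ G.join_right hb.2.1)
            · rw [Nat.le_zero, Finset.card_eq_zero, Finset.filter_eq_empty_iff]
              rintro y _ ⟨h1, h2⟩
              exact hsl (h2 ▸ G.join_left h1)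
          refine (Finset.sum_le_sum h2).trans ?_
          rw [Finset.sum_boole, Nat.cast_id]
          have hsub : S2.filter (fun s => on s l) ⊆ (S.filter (fun p => on p l)).erase y0 := by
            intro s hs
            rw [Finset.mem_filter] at hs
            rw [Finset.mem_erase, Finset.mem_filter]
            refine ⟨?_, (Finset.mem_filter.mp hs.1).1, hs.2⟩
            rintro rfl
            exact (Finset.mem_filter.mp hs.1).2 (Finset.mem_filter.mp hy0).2
          refine (Finset.card_le_card hsub).trans ?_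
          rw [Finset.card_erase_of_mem (Finset.mem_filter.mpr ⟨(Finset.mem_filter.mp hy0).1, hy0l⟩)]
          rfl
        · have : ∀ s ∈ S2, (Y.filter (fun y => s ≠ y ∧ join s y = l)).card = 0 := by
            intro s _
            rw [Finset.card_eq_zero, Finset.filter_eq_empty_iff]
            rintro y hy ⟨h1, h2⟩
            exact hyl ⟨y, hy, h2 ▸ G.join_right h1⟩
          rw [Finset.sum_eq_zero this]
          exact Nat.zero_le _
    rw [hB]
    exact_mod_cast h0
  -- Markov
  set c : ℝ := 2 * B / S2.card with hc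
  have hc0 : 0 ≤ c := by positivity
  set T := S2.filter (fun s => ((bd s).card : ℝ) ≤ c) with hT
  have hTc : w ≤ T.card := by
    have hrest : ((S2.filter (fun s => ¬ ((bd s).card : ℝ) ≤ c)).card : ℝ) * 2 ≤ S2.card := by
      by_cases hBpos : 0 < B
      · have hcpos : 0 < c := by positivity
        have h1 : ((S2.filter (fun s => ¬ ((bd s).card : ℝ) ≤ c)).card : ℝ) * c
            ≤ ((∑ s ∈ S2, (bd s).card : ℕ) : ℝ) := by
          push_cast
          calc _ = ∑ _s ∈ S2.filter (fun s => ¬ ((bd s).card : ℝ) ≤ c), c := by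
                rw [Finset.sum_const, nsmul_eq_mul]
            _ ≤ ∑ s ∈ S2.filter (fun s => ¬ ((bd s).card : ℝ) ≤ c), ((bd s).card : ℝ) := by
                apply Finset.sum_le_sum
                intro s hs
                exact (not_le.mp (Finset.mem_filter.mp hs).2).le
            _ ≤ _ := Finset.sum_le_sum_of_subset_of_nonneg (Finset.filter_subset _ _)
                (fun _ _ _ => Nat.cast_nonneg _)
        have h2 := h1.trans hsum
        rw [hc] at h2
        have h3 : ((S2.filter (fun s => ¬ ((bd s).card : ℝ) ≤ c)).card : ℝ) * (2 * B) ≤ B * S2.card := by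
          have := mul_le_mul_of_nonneg_right h2 hNR.le
          rwa [mul_assoc, div_mul_cancel₀ _ hNR.ne'] at this
        nlinarith
      · have hB00 : B = 0 := le_antisymm (not_lt.mp hBpos) hB0
        have h1 : ∀ s ∈ S2, ((bd s).card : ℝ) ≤ c := by
          intro s hs
          have h2 : ((bd s).card : ℝ) ≤ ((∑ s ∈ S2, (bd s).card : ℕ) : ℝ) := by
            exact_mod_cast Finset.single_le_sum (f := fun s => (bd s).card) (fun _ _ => Nat.zero_le _) hs
          linarith
        rw [Finset.filter_false_of_mem]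
        · simp
        · intro s hs
          exact not_not.mpr (h1 s hs)
    have hsplit := Finset.card_filter_add_card_filter_not (s := S2) (fun s => ((bd s).card : ℝ) ≤ c)
    have hsplitR : (T.card : ℝ) + ((S2.filter (fun s => ¬ ((bd s).card : ℝ) ≤ c)).card : ℝ) = S2.card := by
      exact_mod_cast hsplit
    have h2w : (2 * (w : ℝ)) ≤ S2.card := by exact_mod_cast hN2
    have : (w : ℝ) ≤ T.card := by linarith
    exact_mod_cast this
  obtain ⟨U, hUT, hUc⟩ := Finset.exists_subset_card_eq hTc
  have hUS2 : U ⊆ S2 := hUT.trans (Finset.filter_subset _ _)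
  -- the good `y`
  set Bad := U.biUnion bd with hBad
  have hBadc : (Bad.card : ℝ) ≤ w * c := by
    have h1 : Bad.card ≤ ∑ u ∈ U, (bd u).card := Finset.card_biUnion_le
    have h2 : ((∑ u ∈ U, (bd u).card : ℕ) : ℝ) ≤ ∑ _u ∈ U, c := by
      push_cast
      apply Finset.sum_le_sum
      intro u hu
      exact (Finset.mem_filter.mp (hUT hu)).2
    rw [Finset.sum_const, nsmul_eq_mul, hUc] at h2
    exact (by exact_mod_cast h1 : (Bad.card : ℝ) ≤ ((∑ u ∈ U, (bd u).card : ℕ) : ℝ)).trans h2
  have hcX : (w : ℝ) * c ≤ X / 4 := by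
    rw [hc]
    have hcalc : (w : ℝ) * (2 * B / S2.card) = 2 * (w * B) / S2.card := by ring
    rw [hcalc, div_le_iff₀ hNR]
    nlinarith
  -- points of `Y` on a line through `O` with some `u`
  set Th := U.biUnion (fun u => Y.filter (fun y => u ≠ y ∧ thr (join u y))) with hTh
  have hThc : Th.card ≤ w := by
    have h1 : ∀ u ∈ U, (Y.filter (fun y => u ≠ y ∧ thr (join u y))).card ≤ 1 := by
      intro u hu
      rw [Finset.card_le_one]
      intro a ha b hb
      rw [Finset.mem_filter] at ha hb
      by_contra hab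
      have h2 : join u a = join u b := hthr u _ _ (G.join_left ha.2.1) (G.join_left hb.2.1) ha.2.2 hb.2.2
      have h3 : on a (join u b) := h2 ▸ G.join_right ha.2.1
      have h4 : join u b = m := G.uniq hab h3 (G.join_right hb.2.1) (Finset.mem_filter.mp ha.1).2
        (Finset.mem_filter.mp hb.1).2
      have h5 : on u m := h4 ▸ G.join_left hb.2.1
      exact (Finset.mem_filter.mp (hUS2 hu)).2 h5
    calc Th.card ≤ ∑ u ∈ U, (Y.filter (fun y => u ≠ y ∧ thr (join u y))).card := Finset.card_biUnion_le
      _ ≤ ∑ _u ∈ U, 1 := Finset.sum_le_sum h1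
      _ = w := by rw [Finset.sum_const, hUc, smul_eq_mul, mul_one]
  set V0 := (Y \ Bad) \ Th with hV0
  have hV0c : ((3 * w ^ 5 * 1 : ℕ) : ℝ) < V0.card := by
    have h1 : Y.card ≤ V0.card + Bad.card + Th.card := by
      have h2 : Y ⊆ V0 ∪ Bad ∪ Th := by
        intro y hy
        simp only [hV0, Finset.mem_union, Finset.mem_sdiff]
        tauto
      refine (Finset.card_le_card h2).trans ?_
      refine (Finset.card_union_le _ _).trans (Nat.add_le_add_right ?_ _)
      exact Finset.card_union_le _ _
    have h1R : (Y.card : ℝ) ≤ V0.card + Bad.card + Th.card := by exact_mod_cast h1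
    have h3 : (Th.card : ℝ) ≤ w := by exact_mod_cast hThc
    have hYX : X ≤ Y.card := hX
    have h5 : (w : ℝ) ≤ (w : ℝ) ^ 5 := by
      calc (w : ℝ) = (w : ℝ) ^ 1 := by ring
        _ ≤ (w : ℝ) ^ 5 := pow_le_pow_right₀ hwR (by norm_num)
    have h6 : (1 : ℝ) ≤ (w : ℝ) ^ 5 := one_le_pow₀ hwR
    push_cast
    nlinarith
  have hV0Y : V0 ⊆ Y := fun y hy => (Finset.mem_sdiff.mp (Finset.mem_sdiff.mp hy).1).1
  have hUne : ∀ u ∈ U, ∀ v ∈ V0, u ≠ v := by
    rintro u hu v hv rfl
    exact (Finset.mem_filter.mp (hUS2 hu)).2 (Finset.mem_filter.mp (hV0Y hv)).2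
  obtain ⟨V, hVsub, hVc, hgp⟩ := exists_genPos G U V0 w 1 hUc hw hUne
    (by
      intro u hu l hul
      rw [Finset.card_le_one]
      intro a ha b hb
      rw [Finset.mem_filter] at ha hb
      by_contra hab
      have : l = m := G.uniq hab ha.2 hb.2 (Finset.mem_filter.mp (hV0Y ha.1)).2
        (Finset.mem_filter.mp (hV0Y hb.1)).2
      exact (Finset.mem_filter.mp (hUS2 hu)).2 (this ▸ hul))
    (by exact_mod_cast hV0c)
  have hUS : U ⊆ A := (hUS2.trans (Finset.filter_subset _ _)).trans hSA
  have hVS : V ⊆ A := ((hVsub.trans hV0Y).trans (Finset.filter_subset _ _)).trans hSA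
  obtain ⟨u, hu, v, hv, hj⟩ := hGrid U V hUS hVS hUc hVc
    (by
      intro u hu v hv
      refine ⟨hUne u hu v (hVsub hv), ?_⟩
      intro hthrj
      have hv0 := hVsub hv
      rw [hV0, Finset.mem_sdiff] at hv0
      exact hv0.2 (Finset.mem_biUnion.mpr ⟨u, hu, Finset.mem_filter.mpr
        ⟨hV0Y (hVsub hv), hUne u hu v (hVsub hv), hthrj⟩⟩))
    hgp
  have hv0 := hVsub hv
  rw [hV0, Finset.mem_sdiff, Finset.mem_sdiff] at hv0
  exact hv0.1.2 (Finset.mem_biUnion.mpr ⟨u, hu, Finset.mem_filter.mpr
    ⟨hV0Y (hVsub hv), hUne u hu v (hVsub hv), hj⟩⟩)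

end Linear

end Crest.Agent.Ryser
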